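import Vale.Agent.P331I.Main

/-!
P331: the single-sample matroid prophet inequality for identical, or comparable, laws.
-/

namespace Vale.Agent.Results.P331.ComparableLaws

open MeasureTheory Vale.Agent.P331I
open scoped ENNReal NNReal

theorem result (α : Type) [Fintype α] [DecidableEq α] (M : Matroid α) :
    ∃ (R : Type) (_ : MeasurableSpace R) (μ : Measure R) (dec : Policy α R),
      IsProbabilityMeasure μ ∧
      (∀ (pre : List α) (A : Finset α) (e : α),
        MeasurableSet {x : (α → ℝ≥0) × R × (α → ℝ≥0) |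
          dec x.1 x.2.1 (pre.map fun a => (a, x.2.2 a)) A e (x.2.2 e)}) ∧
      ∀ (D : α → Measure ℝ≥0) (K : ℝ≥0), (∀ e, IsProbabilityMeasure (D e)) → 1 ≤ K →
        (∀ e f t, D e (Set.Ioi t) ≤ K * D f (Set.Ioi t)) →
        ∫⁻ V, opt M V ∂Measure.pi D
          ≤ 72 * (K : ℝ≥0∞) ^ 6 *
            ∫⁻ x, worst M dec x.1 x.2.2 x.2.1 ∂(Measure.pi D).prod ((Measure.pi D).prod μ) :=
  ⟨Seed α, inferInstance, seedLaw α, ruleDec M, inferInstance, measurableSet_ruleDec M,
    fun D K hD hK hcomp => by
      haveI : ∀ e, IsProbabilityMeasure (D e) := hD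
      exact main_bound M D K hK hcomp⟩

end Vale.Agent.Results.P331.ComparableLaws
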