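import Vale.Agent.P331J.Tail

/-!
P331: a constant from one sample for laws without rare jumps, in particular for laws with
increasing failure rate average and arbitrary scales.
-/

namespace Vale.Agent.Results.P331.IFRALaws

open MeasureTheory Vale.Agent.P331I Vale.Agent.P331J
open scoped ENNReal NNReal

theorem result (α : Type) [Fintype α] [DecidableEq α] (M : Matroid α) :
    (∀ P : ℕ, 0 < P →
      ∃ (R : Type) (_ : MeasurableSpace R) (μ : Measure R) (dec : Policy α R),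
        IsProbabilityMeasure μ ∧
        (∀ (pre : List α) (A : Finset α) (e : α),
          MeasurableSet {x : (α → ℝ≥0) × R × (α → ℝ≥0) |
            dec x.1 x.2.1 (pre.map fun a => (a, x.2.2 a)) A e (x.2.2 e)}) ∧
        ∀ (D : α → Measure ℝ≥0) (N : ℕ) (ε : ℝ≥0), (∀ e, IsProbabilityMeasure (D e)) →
          8 * ((N : ℝ) + 1) + 16 * ε * (P + 1) * 2 ^ P ≤ 2 ^ P →
          (∀ e, ∀ t : ℝ≥0, 0 < t → 1 ≤ (N : ℝ) * (D e).real (Set.Ioi t) ∨
            ∃ l : ℝ≥0, 1 ≤ l ∧ l ≤ 2 ^ P ∧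
              2 ^ P * (D e).real (Set.Ioi (2 ^ P * t)) * (1 - (D e).real (Set.Ioi t))
                ≤ ε * l * (D e).real (Set.Ioi (l * t))) →
          ∫⁻ V, opt M V ∂Measure.pi D ≠ ⊤ →
          ∫⁻ V, opt M V ∂Measure.pi D
            ≤ ((8 * P * (N + 1) : ℕ) : ℝ≥0∞) *
              ∫⁻ x, worst M dec x.1 x.2.2 x.2.1 ∂(Measure.pi D).prod ((Measure.pi D).prod μ)) ∧
    ∀ N : ℕ,
      ∃ (R : Type) (_ : MeasurableSpace R) (μ : Measure R) (dec : Policy α R),
        IsProbabilityMeasure μ ∧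
        (∀ (pre : List α) (A : Finset α) (e : α),
          MeasurableSet {x : (α → ℝ≥0) × R × (α → ℝ≥0) |
            dec x.1 x.2.1 (pre.map fun a => (a, x.2.2 a)) A e (x.2.2 e)}) ∧
        ∀ (D : α → Measure ℝ≥0), (∀ e, IsProbabilityMeasure (D e)) →
          (∀ e, (D e).real (Set.Ioi 0) = 0 ∨ 1 ≤ (N : ℝ) * (D e).real (Set.Ioi 0)) →
          (∀ e, ∀ t l : ℝ≥0, 1 ≤ l → (D e).real (Set.Ioi (l * t)) ≤
            (D e).real (Set.Ioi 0) *
              ((D e).real (Set.Ioi t) / (D e).real (Set.Ioi 0)) ^ (l : ℝ)) →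
          ∫⁻ V, opt M V ∂Measure.pi D ≠ ⊤ →
          ∫⁻ V, opt M V ∂Measure.pi D
            ≤ ((8 * (10 + Nat.log 2 N) * (2 * N + 1) : ℕ) : ℝ≥0∞) *
              ∫⁻ x, worst M dec x.1 x.2.2 x.2.1 ∂(Measure.pi D).prod ((Measure.pi D).prod μ) := by
  refine ⟨fun P hP => ⟨Fin (2 * P), inferInstance, seedμ P, shiftDec M P, seedμ_prob hP,
      measurableSet_shiftDec M P, fun D N ε hD hnum hjump hfin => ?_⟩,
    fun N => ⟨Fin (2 * (10 + Nat.log 2 N)), inferInstance, seedμ _,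
      shiftDec M (10 + Nat.log 2 N), seedμ_prob (by omega), measurableSet_shiftDec M _,
      fun D hD hN hI hfin => ?_⟩⟩
  · haveI : ∀ e, IsProbabilityMeasure (D e) := hD
    exact master M D P N ε hP hnum hjump hfin
  · haveI : ∀ e, IsProbabilityMeasure (D e) := hD
    refine master M D _ (2 * N) (4 / 2 ^ (10 + Nat.log 2 N)) (by omega) ?_
      (fun e => noJump_of_ifra (D e) N _ (hN e) (hI e)) hfin
    refine le_trans (le_of_eq ?_) (log_period N)
    push_cast
    field_simp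
    ring

end Vale.Agent.Results.P331.IFRALaws
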